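import Vale.Agent.P039.H261.Side
import Mathlib.Tactic.LinearCombination

/-! The cycle lemma. -/

namespace Vale.Agent.P039.H261

open Bn

variable {B W V : Type} (M : PMap B W V)

open Classical in
/-- number of whites of `b` in `S` -/
noncomputable def tt (S : Finset W) (b : B) : ℕ := (Finset.univ.filter fun j => M.e j b ∈ S).card

theorem bool3 : ∀ p : Fin 3 → Bool,
    (Finset.univ.filter fun j => p j = true).card ≤ 3 ∧
    (((Finset.univ.filter fun j => p j = true).card = 3) ↔ ∀ j, p j = true) ∧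
    (Finset.univ.filter fun j => p (j + 1) = true ∧ p (j + 2) = true).card =
      (if (Finset.univ.filter fun j => p j = true).card = 2 then 1 else 0) +
      3 * (if (Finset.univ.filter fun j => p j = true).card = 3 then 1 else 0) ∧
    (Finset.univ.filter fun j => p j = true).card =
      (if (Finset.univ.filter fun j => p j = true).card = 1 then 1 else 0) +
      2 * (if (Finset.univ.filter fun j => p j = true).card = 2 then 1 else 0) +
      3 * (if (Finset.univ.filter fun j => p j = true).card = 3 then 1 else 0) := by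
  decide

theorem prop3 (p : Fin 3 → Prop) [DecidablePred p] :
    (Finset.univ.filter fun j => p j).card ≤ 3 ∧
    (((Finset.univ.filter fun j => p j).card = 3) ↔ ∀ j, p j) ∧
    (Finset.univ.filter fun j => p (j + 1) ∧ p (j + 2)).card =
      (if (Finset.univ.filter fun j => p j).card = 2 then 1 else 0) +
      3 * (if (Finset.univ.filter fun j => p j).card = 3 then 1 else 0) ∧
    (Finset.univ.filter fun j => p j).card =
      (if (Finset.univ.filter fun j => p j).card = 1 then 1 else 0) +
      2 * (if (Finset.univ.filter fun j => p j).card = 2 then 1 else 0) +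
      3 * (if (Finset.univ.filter fun j => p j).card = 3 then 1 else 0) := by
  have := bool3 (fun j => decide (p j))
  simpa only [decide_eq_true_eq] using this

open Classical in
noncomputable def ac [Fintype B] (S : Finset W) (i : ℕ) : ℕ :=
  (Finset.univ.filter fun b => tt M S b = i).card

def InF (S : Finset W) (v : V) : Prop :=
  ∀ j b, M.c j b = v → M.e (j + 1) b ∈ S ∧ M.e (j + 2) b ∈ S

open Classical in
noncomputable def fc [Fintype V] (S : Finset W) : ℕ :=
  (Finset.univ.filter fun v => InF M S v).card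

set_option linter.unusedSectionVars false

variable [Fintype B] [Fintype W] [Fintype V]

theorem sum_tt (S : Finset W) : 3 * S.card = ac M S 1 + 2 * ac M S 2 + 3 * ac M S 3 := by
  classical
  have h1 : ∑ b, tt M S b = 3 * S.card := by
    simp only [tt, Finset.card_filter]
    rw [Finset.sum_comm]
    have : ∀ j : Fin 3, ∑ b, (if M.e j b ∈ S then 1 else 0) = S.card := by
      intro j
      rw [Equiv.sum_comp (M.e j) (fun w => if w ∈ S then 1 else 0)]
      simp
    simp [this]
  rw [← h1]
  simp only [ac, Finset.card_filter, Finset.mul_sum]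
  rw [← Finset.sum_add_distrib, ← Finset.sum_add_distrib]
  apply Finset.sum_congr rfl
  intro b _
  exact (prop3 (fun j => M.e j b ∈ S)).2.2.2

theorem corner_card (S : Finset W) [DecidablePred fun q : Fin 3 × B =>
    M.e (q.1 + 1) q.2 ∈ S ∧ M.e (q.1 + 2) q.2 ∈ S] :
    (Finset.univ.filter fun q : Fin 3 × B => M.e (q.1 + 1) q.2 ∈ S ∧ M.e (q.1 + 2) q.2 ∈ S).card =
      ac M S 2 + 3 * ac M S 3 := by
  classical
  simp only [ac, Finset.card_filter, Finset.mul_sum]
  rw [Fintype.sum_prod_type_right, ← Finset.sum_add_distrib]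
  apply Finset.sum_congr rfl
  intro b _
  have := (prop3 (fun j => M.e j b ∈ S)).2.2.1
  rw [Finset.card_filter] at this
  simp only [tt]
  convert this using 3 <;> congr!

theorem side_ineq (hs : M.Sph) [Nonempty B] (S : Finset W) (hS : ∃ w, w ∉ S)
    (hk : ∀ n : W → ℚ, (∀ w, w ∉ S → n w = 0) →
      (∀ j b, M.e (j + 1) b ∈ S → M.e (j + 2) b ∈ S → n (M.e (j + 1) b) = n (M.e (j + 2) b)) →
      ∃ c : ℚ, n = c • ind S) :
    ac M S 1 + 3 * fc M S ≤ ac M S 2 + 3 * ac M S 3 + 3 := by
  classical
  let SE : Finset (Fin 3 × B) :=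
    Finset.univ.filter fun q => M.e (q.1 + 1) q.2 ∈ S ∧ M.e (q.1 + 2) q.2 ∈ S
  let SX : Finset (B ⊕ V) := Finset.univ.filter fun s =>
    Sum.elim (fun b => ∀ j, M.e j b ∈ S) (fun v => InF M S v) s
  have hnX : ∀ x : B ⊕ V → ℚ, (∀ w, w ∉ SX → x w = 0) → ∀ q, q ∉ SE → tJ M x q = 0 := by
    intro x hx q hq
    obtain ⟨j, b⟩ := q
    rw [tJ_apply, hx, hx, add_zero]
    · intro h
      have h1 : InF M S (M.c j b) := by simpa [SX] using h
      exact hq (by simpa [SE] using h1 j b rfl)
    · intro h
      have h1 : ∀ j, M.e j b ∈ S := by simpa [SX] using h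
      exact hq (by simpa [SE] using ⟨h1 _, h1 _⟩)
  have h1 := rank_ineq S SE SX (dJ M) (tJ M) (by
      intro y x _ hx
      rw [← orthJ M y x]
      apply Finset.sum_subset (Finset.subset_univ _)
      intro q _ hq
      rw [hnX x hx q hq, mul_zero])
    (ind S) 1 (Or.inr le_rfl) (by
      intro y hy hy'
      apply hk y hy
      intro j b h1 h2
      have := hy' (j, b) (by simpa [SE] using ⟨h1, h2⟩)
      rw [dJ_apply] at this
      linarith)
    0 0 (Or.inl rfl) (by
      intro x hx hx'
      refine ⟨0, ?_⟩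
      obtain ⟨c, hc, hc'⟩ := kertJ M hs.conn x (by
        intro q
        by_cases hq : q ∈ SE
        · exact hx' q hq
        · exact hnX x hx q hq)
      obtain ⟨w, hw⟩ := hS
      obtain ⟨b, rfl⟩ := white_of M w 0
      have h0 : c = 0 := by
        rw [← hc b]
        apply hx
        intro h
        have h1 : ∀ j, M.e j b ∈ S := by simpa [SX] using h
        exact hw (h1 0)
      funext s
      rcases s with b | v
      · simp [hc, h0]
      · simp [hc', h0])
  have h2 : SX.card = ac M S 3 + fc M S := by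
    have e : SX = (Finset.univ.filter fun b : B => ∀ j, M.e j b ∈ S).disjSum
        (Finset.univ.filter fun v : V => InF M S v) := by
      ext s
      rcases s with b | v <;> simp [SX]
    rw [e, Finset.card_disjSum]
    congr 1
    unfold ac
    congr 1
    ext b
    simp only [Finset.mem_filter, Finset.mem_univ, true_and]
    exact (prop3 (fun j => M.e j b ∈ S)).2.1.symm
  have h3 : SE.card = ac M S 2 + 3 * ac M S 3 := corner_card M S
  have h4 := sum_tt M S
  omega

/-- walking around a face -/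
theorem face_walk {j : Fin 3} {b b' : B} (h : M.c j b = M.c j b') (p : W → Prop)
    (hp : ∀ b'', M.c j b'' = M.c j b → (p (M.e (j + 1) b'') ↔ p (M.e (j + 2) b''))) :
    p (M.e (j + 1) b) ↔ p (M.e (j + 1) b') := by
  obtain ⟨n, rfl⟩ := (M.same_iff j b b').1 h
  clear h
  induction n with
  | zero => rfl
  | succ n ih =>
    rw [ih, pow_succ', Equiv.Perm.mul_apply, M.e_rho]
    exact hp _ (M.c_rho_pow j n b)

variable {M} {f g : B → Fin 3} {σ : Equiv.Perm B} {C : Finset B} {I : Finset W} {s : ℚ}

theorem mem_iff_of_zero {q : Fin 3 × B} (hq : dJ M (ind I) q = 0) :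
    M.e (q.1 + 1) q.2 ∈ I ↔ M.e (q.1 + 2) q.2 ∈ I := by
  obtain ⟨j, b⟩ := q
  rw [dJ_apply] at hq
  by_cases h1 : M.e (j + 1) b ∈ I <;> by_cases h2 : M.e (j + 2) b ∈ I
  · simp [h1, h2]
  · simp [ind, h1, h2] at hq
  · simp [ind, h1, h2] at hq
  · simp [h1, h2]

/-- k = 2 in + 3 -/
theorem JC.cycle_lemma (hs : M.Sph) (h : JC M f g σ C) (hs0 : s = 1 ∨ s = -1)
    (hI : zz f g C (fun _ => 1) = s • dJ M (ind I)) (b0 : B) (h0 : b0 ∉ C)
    (hw0 : M.e 0 b0 ∉ I)
    (gi : ∀ b b', b ≠ b0 → b' ≠ b0 → M.c (g b) b = M.c (g b') b' → b = b')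
    (gr : ∀ b, b ≠ b0 → ∀ i, M.c (g b) b ≠ M.c i b0) :
    C.card = 2 * (C.filter fun b => tt M I b = 2).card + 3 ∧
    ∀ b ∈ C, tt M I b = 1 ∨ tt M I b = 2 := by
  classical
  obtain ⟨b1, hb1⟩ := h.nonempty
  have : Nonempty B := ⟨b1⟩
  have hsne : s ≠ 0 := by rcases hs0 with h | h <;> rw [h] <;> norm_num
  have hzero : ∀ j b, ¬ (b ∈ C ∧ (j = f b ∨ j = g b)) → dJ M (ind I) (j, b) = 0 := by
    intro j b hb
    by_contra h1
    apply hb
    apply zz_ne_zero (l := fun _ => (1 : ℚ))
    rw [hI]
    exact mul_ne_zero hsne h1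
  have hnz : ∀ b ∈ C, dJ M (ind I) (f b, b) ≠ 0 := by
    intro b hb h1
    have h2 := congrFun hI (f b, b)
    simp [zz, hb, h.ne b hb, h1] at h2
  -- off the curve
  have hoff : ∀ b, b ∉ C → ∀ i j, M.e i b ∈ I ↔ M.e j b ∈ I := by
    intro b hb i j
    have := all_eq_of (fun j => M.e j b ∈ I) (fun j => propext (mem_iff_of_zero
      (q := (j, b)) (hzero j b (fun h => hb h.1)))) i j
    exact this.to_iff
  have htoff : ∀ b, b ∉ C → (tt M I b = 3 ∨ tt M I b = 0) := by
    intro b hb
    by_cases h1 : M.e 0 b ∈ I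
    · left
      exact (prop3 (fun j => M.e j b ∈ I)).2.1.2 (fun j => (hoff b hb 0 j).1 h1)
    · right
      unfold tt
      rw [Finset.card_eq_zero, Finset.filter_eq_empty_iff]
      intro j _ h2
      exact h1 ((hoff b hb j 0).1 h2)
  have hton : ∀ b ∈ C, tt M I b = 1 ∨ tt M I b = 2 := by
    intro b hb
    have h1 := hnz b hb
    have h2 : tt M I b ≠ 3 := by
      intro h3
      have h4 := (prop3 (fun j => M.e j b ∈ I)).2.1.1 h3
      apply h1
      rw [dJ_apply]
      simp [ind, h4]
    have h3 : tt M I b ≠ 0 := by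
      intro h3
      unfold tt at h3
      rw [Finset.card_eq_zero, Finset.filter_eq_empty_iff] at h3
      apply h1
      rw [dJ_apply]
      simp [ind, h3]
    have h4 := (prop3 (fun j => M.e j b ∈ I)).1
    have h5 : tt M I b ≤ 3 := h4
    omega
  refine ⟨?_, hton⟩
  -- constants
  have hcst := h.cst hs hsne hI
  have hIne : ∃ w, w ∈ I := by
    by_contra h1
    push Not at h1
    exact hnz b1 hb1 (by rw [dJ_apply]; simp [ind, h1])
  have e1 := side_ineq M hs I ⟨_, hw0⟩ (by
    intro n hn hn'
    obtain ⟨l, m, hlm⟩ := hcst n (by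
      intro b j hq
      have h1 := mem_iff_of_zero hq
      simp only at h1
      by_cases h2 : M.e (j + 1) b ∈ I
      · exact hn' j b h2 (h1.1 h2)
      · rw [hn _ h2, hn _ (fun h3 => h2 (h1.2 h3))])
    have h1 := hlm (M.e 0 b0)
    rw [hn _ hw0] at h1
    simp only [ind, hw0, if_false, mul_zero, add_zero] at h1
    refine ⟨m, ?_⟩
    funext w
    rw [hlm w, ← h1]
    simp)
  have e2 := side_ineq M hs Iᶜ (by
    obtain ⟨w, hw⟩ := hIne
    exact ⟨w, by simpa using hw⟩) (by
    intro n hn hn'
    simp only [Finset.mem_compl, not_not] at hn hn'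
    obtain ⟨l, m, hlm⟩ := hcst n (by
      intro b j hq
      have h1 := mem_iff_of_zero hq
      simp only at h1
      by_cases h2 : M.e (j + 1) b ∈ I
      · rw [hn _ h2, hn _ (h1.1 h2)]
      · exact hn' j b h2 (fun h3 => h2 (h1.2 h3)))
    obtain ⟨w, hw⟩ := hIne
    have h1 := hlm w
    rw [hn _ hw] at h1
    simp only [ind, hw, if_true, mul_one] at h1
    refine ⟨l, ?_⟩
    funext w'
    rw [hlm w']
    by_cases h2 : w' ∈ I
    · simp [ind, h2]; linarith
    · simp [ind, h2])
  -- counts of the complement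
  have hcomp : ∀ b, tt M Iᶜ b + tt M I b = 3 := by
    intro b
    unfold tt
    have := Finset.card_filter_add_card_filter_not (s := (Finset.univ : Finset (Fin 3)))
      (fun j => M.e j b ∈ I)
    simp only [Finset.card_univ, Fintype.card_fin] at this
    simp only [Finset.mem_compl]
    omega
  have c1 : ac M Iᶜ 1 = ac M I 2 := by
    unfold ac; congr 1; ext b; have := hcomp b; simp only [Finset.mem_filter, Finset.mem_univ, true_and]; omega
  have c2 : ac M Iᶜ 2 = ac M I 1 := by
    unfold ac; congr 1; ext b; have := hcomp b; simp only [Finset.mem_filter, Finset.mem_univ, true_and]; omega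
  have c3 : ac M Iᶜ 3 = ac M I 0 := by
    unfold ac; congr 1; ext b; have := hcomp b; simp only [Finset.mem_filter, Finset.mem_univ, true_and]; omega
  -- faces
  have hface : ∀ v, (∀ b ∈ C, M.c (f b) b ≠ v) → ∀ j b, M.c j b = v →
      (M.e (j + 1) b ∈ I ↔ M.e (j + 2) b ∈ I) := by
    intro v hv j b hb
    apply mem_iff_of_zero (q := (j, b)) (hzero j b ?_)
    rintro ⟨hbC, rfl | rfl⟩
    · exact hv b hbC hb
    · obtain ⟨b2, rfl⟩ := σ.surjective b
      have h2 := (h.mem b2).1 hbC
      exact hv b2 h2 ((h.step b2 h2).symm.trans hb)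
  have hface2 : ∀ v, (∀ b ∈ C, M.c (f b) b ≠ v) → ∀ j b, M.c j b = v →
      ∀ j' b', M.c j' b' = v → ((M.e (j + 1) b ∈ I ↔ M.e (j' + 1) b' ∈ I) ∧
        (M.e (j + 1) b ∈ I ↔ M.e (j' + 2) b' ∈ I)) := by
    intro v hv j b hb j' b' hb'
    have hj : j = j' := M.cls j j' b b' (hb.trans hb'.symm)
    subst hj
    have h1 := face_walk M (hb.trans hb'.symm) (fun w => w ∈ I) (by
      intro b'' hb''
      exact hface v hv j b'' (hb''.trans hb))
    exact ⟨h1, h1.trans (hface v hv j b' hb')⟩
  have hoffv : ∀ b, b ∉ C → b ≠ b0 → ∀ b' ∈ C, M.c (f b') b' ≠ M.c (g b) b := by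
    intro b hb hb0 b' hb' heq
    rw [← h.step b' hb'] at heq
    have h1 : σ b' ∈ C := (h.mem b').2 hb'
    have h2 : σ b' ≠ b0 := fun h3 => h0 (h3 ▸ h1)
    have h3 := gi _ _ h2 hb0 heq
    exact hb (h3 ▸ h1)
  have hrootv : ∀ i, ∀ b' ∈ C, M.c (f b') b' ≠ M.c i b0 := by
    intro i b' hb' heq
    rw [← h.step b' hb'] at heq
    have h1 : σ b' ∈ C := (h.mem b').2 hb'
    have h2 : σ b' ≠ b0 := fun h3 => h0 (h3 ▸ h1)
    exact gr _ h2 i heq
  have hout0 : ∀ i, M.e i b0 ∉ I := fun i h1 => hw0 ((hoff b0 h0 i 0).1 h1)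
  have f1 : ac M I 3 ≤ fc M I := by
    unfold ac fc
    apply Finset.card_le_card_of_injOn (fun b => M.c (g b) b)
    · intro b hb
      have hb3 : tt M I b = 3 := by simpa using hb
      have hbC : b ∉ C := fun h1 => by rcases hton b h1 with h2 | h2 <;> omega
      have hall : ∀ j, M.e j b ∈ I := (prop3 (fun j => M.e j b ∈ I)).2.1.1 hb3
      have hb0 : b ≠ b0 := fun h1 => hw0 (h1 ▸ hall 0)
      simp only [Finset.coe_filter, Finset.mem_univ, true_and, Set.mem_ofPred_eq]
      intro j b' hb'
      have h1 := hface2 _ (hoffv b hbC hb0) (g b) b rfl j b' hb'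
      exact ⟨h1.1.1 (hall _), h1.2.1 (hall _)⟩
    · intro b hb b' hb' heq
      have hb3 : tt M I b = 3 := by simpa using hb
      have hb3' : tt M I b' = 3 := by simpa using hb'
      have hall : ∀ j, M.e j b ∈ I := (prop3 (fun j => M.e j b ∈ I)).2.1.1 hb3
      have hall' : ∀ j, M.e j b' ∈ I := (prop3 (fun j => M.e j b' ∈ I)).2.1.1 hb3'
      exact gi _ _ (fun h1 => hw0 (h1 ▸ hall 0)) (fun h1 => hw0 (h1 ▸ hall' 0)) heq
  have f2 : ac M I 0 + 2 ≤ fc M Iᶜ := by
    -- injection from {t = 0, b ≠ b0} ⊕ Fin 3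
    have h3 : ac M I 0 = ((Finset.univ.filter fun b => tt M I b = 0).erase b0).card + 1 := by
      rw [Finset.card_erase_add_one]
      · rfl
      · rcases htoff b0 h0 with h1 | h1
        · exact absurd ((prop3 (fun j => M.e j b0 ∈ I)).2.1.1 h1 0) hw0
        · simpa using h1
    let T : Finset (B ⊕ Fin 3) :=
      ((Finset.univ.filter fun b => tt M I b = 0).erase b0).disjSum Finset.univ
    have h4 : T.card = ac M I 0 + 2 := by
      rw [Finset.card_disjSum, h3]; simp
    rw [← h4]
    unfold fc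
    have t0 : ∀ b, tt M I b = 0 → ∀ j, M.e j b ∉ I := by
      intro b hb j
      unfold tt at hb
      rw [Finset.card_eq_zero, Finset.filter_eq_empty_iff] at hb
      exact hb (Finset.mem_univ j)
    apply Finset.card_le_card_of_injOn (Sum.elim (fun b => M.c (g b) b) (fun i => M.c i b0))
    · rintro (b | i) hb
      · have hb' : b ≠ b0 ∧ tt M I b = 0 := by simpa [T] using hb
        have hbC : b ∉ C := fun h1 => by rcases hton b h1 with h2 | h2 <;> omega
        simp only [Sum.elim_inl, Finset.coe_filter, Finset.mem_univ, true_and, Set.mem_ofPred_eq]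
        intro j b' hb''
        have h1 := hface2 _ (hoffv b hbC hb'.1) (g b) b rfl j b' hb''
        simp only [Finset.mem_compl]
        exact ⟨fun h2 => t0 b hb'.2 _ (h1.1.2 h2), fun h2 => t0 b hb'.2 _ (h1.2.2 h2)⟩
      · simp only [Sum.elim_inr, Finset.coe_filter, Finset.mem_univ, true_and, Set.mem_ofPred_eq]
        intro j b' hb''
        have h1 := hface2 _ (hrootv i) i b0 rfl j b' hb''
        simp only [Finset.mem_compl]
        exact ⟨fun h2 => hout0 _ (h1.1.2 h2), fun h2 => hout0 _ (h1.2.2 h2)⟩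
    · rintro (b | i) hb (b' | i') hb' heq
      · have hb1 : b ≠ b0 ∧ tt M I b = 0 := by simpa [T] using hb
        have hb2 : b' ≠ b0 ∧ tt M I b' = 0 := by simpa [T] using hb'
        exact congrArg Sum.inl (gi _ _ hb1.1 hb2.1 heq)
      · have hb1 : b ≠ b0 ∧ tt M I b = 0 := by simpa [T] using hb
        exact absurd heq (gr _ hb1.1 _)
      · have hb2 : b' ≠ b0 ∧ tt M I b' = 0 := by simpa [T] using hb'
        exact absurd heq.symm (gr _ hb2.1 _)
      · exact congrArg Sum.inr (M.cls _ _ _ _ heq)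
  -- conclusion
  have g1 : ac M I 2 = (C.filter fun b => tt M I b = 2).card := by
    unfold ac
    congr 1
    ext b
    simp only [Finset.mem_filter, Finset.mem_univ, true_and]
    constructor
    · intro h1
      refine ⟨?_, h1⟩
      by_contra h2
      rcases htoff b h2 with h3 | h3 <;> omega
    · exact fun h1 => h1.2
  have g2 : ac M I 1 = (C.filter fun b => ¬ tt M I b = 2).card := by
    unfold ac
    congr 1
    ext b
    simp only [Finset.mem_filter, Finset.mem_univ, true_and]
    constructor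
    · intro h1
      refine ⟨?_, by omega⟩
      by_contra h2
      rcases htoff b h2 with h3 | h3 <;> omega
    · rintro ⟨h1, h2⟩
      rcases hton b h1 with h3 | h3
      · exact h3
      · exact absurd h3 h2
  have g3 := Finset.card_filter_add_card_filter_not (s := C) (fun b => tt M I b = 2)
  omega

end Vale.Agent.P039.H261
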