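import Mathlib.LinearAlgebra.FiniteDimensional.Lemmas
import Mathlib.LinearAlgebra.Dimension.Constructions
import Mathlib.Data.Rat.Defs
import Mathlib.Algebra.Order.BigOperators.Ring.Finset
import Mathlib.Algebra.Order.Field.Rat

/-! Rank inequalities for two linear maps with orthogonal ranges. -/

namespace Vale.Agent.P039.H261

open Module

theorem orth_disjoint {E : Type} [Fintype E] (A B : Submodule ℚ (E → ℚ))
    (h : ∀ a ∈ A, ∀ b ∈ B, ∑ e, a e * b e = 0) : Disjoint A B := by
  rw [Submodule.disjoint_def]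
  intro x hA hB
  have h0 := h x hA x hB
  funext e
  have := (Finset.sum_eq_zero_iff_of_nonneg (fun e _ => mul_self_nonneg (x e))).1 h0 e
    (Finset.mem_univ e)
  simpa using this

theorem rk_add {E M L : Type} [Fintype E] [AddCommGroup M] [Module ℚ M] [AddCommGroup L]
    [Module ℚ L] (P : M →ₗ[ℚ] (E → ℚ)) (T : L →ₗ[ℚ] (E → ℚ))
    (h : ∀ y x, ∑ e, P y e * T x e = 0) :
    finrank ℚ (LinearMap.range P) + finrank ℚ (LinearMap.range T) ≤ Fintype.card E := by
  have hd : Disjoint (LinearMap.range P) (LinearMap.range T) := by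
    apply orth_disjoint
    rintro _ ⟨y, rfl⟩ _ ⟨x, rfl⟩
    exact h y x
  have h1 := Submodule.finrank_sup_add_finrank_inf_eq (LinearMap.range P) (LinearMap.range T)
  rw [hd.eq_bot, finrank_bot, add_zero] at h1
  rw [← h1]
  have := Submodule.finrank_le (LinearMap.range P ⊔ LinearMap.range T)
  simpa using this

theorem finrank_ker_le {M N : Type} [AddCommGroup M] [Module ℚ M] [AddCommGroup N] [Module ℚ N]
    [FiniteDimensional ℚ M] (P : M →ₗ[ℚ] N) (y0 : M) (p : ℕ) (hp : y0 = 0 ∨ 1 ≤ p)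
    (h : ∀ y, P y = 0 → ∃ c : ℚ, y = c • y0) : finrank ℚ (LinearMap.ker P) ≤ p := by
  have hle : LinearMap.ker P ≤ Submodule.span ℚ {y0} := by
    intro y hy
    obtain ⟨c, hc⟩ := h y hy
    rw [hc]
    exact Submodule.smul_mem _ _ (Submodule.mem_span_singleton_self _)
  have h1 := Submodule.finrank_mono hle
  rcases hp with rfl | hp
  · rw [Submodule.span_zero_singleton, finrank_bot] at h1
    omega
  · have h2 : finrank ℚ (Submodule.span ℚ {y0}) ≤ 1 := by
      by_cases h0 : y0 = 0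
      · subst h0
        rw [Submodule.span_zero_singleton, finrank_bot]
        omega
      · rw [finrank_span_singleton h0]
    omega

/-- extension by zero -/
noncomputable def ext {F : Type} (S : Finset F) : (S → ℚ) →ₗ[ℚ] (F → ℚ) := by
  classical exact
  { toFun := fun y w => if h : w ∈ S then y ⟨w, h⟩ else 0
    map_add' := by
      intro x y; funext w; by_cases h : w ∈ S <;> simp [h]
    map_smul' := by
      intro c y; funext w; by_cases h : w ∈ S <;> simp [h] }

theorem ext_mem {F : Type} (S : Finset F) (y : S → ℚ) (w : S) : ext S y w = y w := by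
  simp [ext]

theorem ext_not_mem {F : Type} (S : Finset F) (y : S → ℚ) (w : F) (h : w ∉ S) :
    ext S y w = 0 := by
  simp [ext, h]

theorem rank_ineq {F E X : Type} [Fintype F] [Fintype E] [Fintype X]
    (SF : Finset F) (SE : Finset E) (SX : Finset X)
    (P : (F → ℚ) →ₗ[ℚ] (E → ℚ)) (T : (X → ℚ) →ₗ[ℚ] (E → ℚ))
    (orth : ∀ y x, (∀ w, w ∉ SF → y w = 0) → (∀ v, v ∉ SX → x v = 0) →
      ∑ e ∈ SE, P y e * T x e = 0)
    (y0 : F → ℚ) (p : ℕ) (hp : y0 = 0 ∨ 1 ≤ p)
    (hP : ∀ y, (∀ w, w ∉ SF → y w = 0) → (∀ e ∈ SE, P y e = 0) → ∃ c : ℚ, y = c • y0)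
    (x0 : X → ℚ) (q : ℕ) (hq : x0 = 0 ∨ 1 ≤ q)
    (hT : ∀ x, (∀ w, w ∉ SX → x w = 0) → (∀ e ∈ SE, T x e = 0) → ∃ c : ℚ, x = c • x0) :
    SF.card + SX.card ≤ SE.card + p + q := by
  classical
  let res : (E → ℚ) →ₗ[ℚ] (SE → ℚ) :=
    { toFun := fun z e => z e
      map_add' := fun _ _ => rfl
      map_smul' := fun _ _ => rfl }
  let P' : (SF → ℚ) →ₗ[ℚ] (SE → ℚ) := res ∘ₗ P ∘ₗ ext SF
  let T' : (SX → ℚ) →ₗ[ℚ] (SE → ℚ) := res ∘ₗ T ∘ₗ ext SX
  have h1 := rk_add P' T' (by
    intro y x
    have := orth (ext SF y) (ext SX x) (fun w hw => ext_not_mem _ _ _ hw)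
      (fun w hw => ext_not_mem _ _ _ hw)
    rw [← Finset.sum_coe_sort] at this
    exact this)
  have h2 : finrank ℚ (LinearMap.ker P') ≤ p := by
    apply finrank_ker_le P' (fun w => y0 w) p
    · rcases hp with hp | hp
      · left; funext w; simp [hp]
      · right; exact hp
    · intro y hy
      obtain ⟨c, hc⟩ := hP (ext SF y) (fun w hw => ext_not_mem _ _ _ hw)
        (fun e he => congrFun hy ⟨e, he⟩)
      refine ⟨c, ?_⟩
      funext w
      have := congrFun hc w
      rw [ext_mem] at this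
      rw [this]; rfl
  have h3 : finrank ℚ (LinearMap.ker T') ≤ q := by
    apply finrank_ker_le T' (fun w => x0 w) q
    · rcases hq with hq | hq
      · left; funext w; simp [hq]
      · right; exact hq
    · intro y hy
      obtain ⟨c, hc⟩ := hT (ext SX y) (fun w hw => ext_not_mem _ _ _ hw)
        (fun e he => congrFun hy ⟨e, he⟩)
      refine ⟨c, ?_⟩
      funext w
      have := congrFun hc w
      rw [ext_mem] at this
      rw [this]; rfl
  have h4 := LinearMap.finrank_range_add_finrank_ker P'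
  have h5 := LinearMap.finrank_range_add_finrank_ker T'
  rw [Module.finrank_fintype_fun_eq_card, Fintype.card_coe] at h4 h5
  rw [Fintype.card_coe] at h1
  omega

theorem exact_of_card {F E X : Type} [Fintype F] [Fintype E] [Fintype X]
    (P : (F → ℚ) →ₗ[ℚ] (E → ℚ)) (T : (X → ℚ) →ₗ[ℚ] (E → ℚ))
    (orth : ∀ y x, ∑ e, P y e * T x e = 0)
    (y0 : F → ℚ) (hP : ∀ y, P y = 0 → ∃ c : ℚ, y = c • y0)
    (x0 : X → ℚ) (hT : ∀ x, T x = 0 → ∃ c : ℚ, x = c • x0)
    (hc : Fintype.card F + Fintype.card X = Fintype.card E + 2)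
    (z : E → ℚ) (hz : ∀ x, ∑ e, z e * T x e = 0) : ∃ y, P y = z := by
  classical
  have hd : Disjoint (LinearMap.range P) (LinearMap.range T) := by
    apply orth_disjoint
    rintro _ ⟨y, rfl⟩ _ ⟨x, rfl⟩
    exact orth y x
  have h2 := finrank_ker_le P y0 1 (Or.inr le_rfl) hP
  have h3 := finrank_ker_le T x0 1 (Or.inr le_rfl) hT
  have h4 := LinearMap.finrank_range_add_finrank_ker P
  have h5 := LinearMap.finrank_range_add_finrank_ker T
  rw [Module.finrank_fintype_fun_eq_card] at h4 h5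
  have h1 := Submodule.finrank_sup_add_finrank_inf_eq (LinearMap.range P) (LinearMap.range T)
  rw [hd.eq_bot, finrank_bot, add_zero] at h1
  have h6 : LinearMap.range P ⊔ LinearMap.range T = ⊤ := by
    apply Submodule.eq_top_of_finrank_eq
    apply le_antisymm (Submodule.finrank_le _)
    rw [Module.finrank_fintype_fun_eq_card]
    omega
  have h7 : z ∈ LinearMap.range P ⊔ LinearMap.range T := by rw [h6]; trivial
  obtain ⟨_, ⟨y, rfl⟩, _, ⟨x, rfl⟩, hyx⟩ := Submodule.mem_sup.1 h7
  have h8 : ∑ e, T x e * T x e = 0 := by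
    have h9 := hz x
    rw [← hyx] at h9
    simp only [Pi.add_apply, add_mul, Finset.sum_add_distrib, orth, zero_add] at h9
    exact h9
  have h9 : T x = 0 := by
    funext e
    have := (Finset.sum_eq_zero_iff_of_nonneg (fun e _ => mul_self_nonneg (T x e))).1 h8 e
      (Finset.mem_univ e)
    simpa using this
  refine ⟨y, ?_⟩
  rw [← hyx, h9, add_zero]

end Vale.Agent.P039.H261
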