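import Vale.Agent.P039.Bn.Defs
import Vale.Agent.P039.H261.Rank
import Mathlib.Tactic.Linarith
import Mathlib.Tactic.Ring
import Mathlib.Tactic.FieldSimp

/-! The two chain complexes of a web. -/

namespace Vale.Agent.P039.H261

open Bn

section
variable {B W V : Type} (M : PMap B W V)

theorem sum3 {α : Type} [AddCommMonoid α] (g : Fin 3 → α) : ∑ i, g (i + 1) = ∑ i, g i :=
  Equiv.sum_comp (Equiv.addRight (1 : Fin 3)) g

theorem sum3' {α : Type} [AddCommMonoid α] (g : Fin 3 → α) : ∑ i, g (i + 2) = ∑ i, g i :=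
  Equiv.sum_comp (Equiv.addRight (2 : Fin 3)) g

/-- boundary of white hexagons -/
def dJ : (W → ℚ) →ₗ[ℚ] (Fin 3 × B → ℚ) where
  toFun n q := n (M.e (q.1 + 1) q.2) - n (M.e (q.1 + 2) q.2)
  map_add' := by intro x y; funext q; simp; ring
  map_smul' := by intro x y; funext q; simp; ring

def tJ : (B ⊕ V → ℚ) →ₗ[ℚ] (Fin 3 × B → ℚ) where
  toFun x q := x (Sum.inl q.2) + x (Sum.inr (M.c q.1 q.2))
  map_add' := by intro x y; funext q; simp; ring
  map_smul' := by intro x y; funext q; simp; ring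

/-- boundary of faces in `G` -/
def dG : (V → ℚ) →ₗ[ℚ] (Fin 3 × B → ℚ) where
  toFun y q := y (M.c (q.1 + 1) q.2) - y (M.c (q.1 + 2) q.2)
  map_add' := by intro x y; funext q; simp; ring
  map_smul' := by intro x y; funext q; simp; ring

def tG : (B ⊕ W → ℚ) →ₗ[ℚ] (Fin 3 × B → ℚ) where
  toFun x q := x (Sum.inl q.2) + x (Sum.inr (M.e q.1 q.2))
  map_add' := by intro x y; funext q; simp; ring
  map_smul' := by intro x y; funext q; simp; ring

theorem dJ_apply (n : W → ℚ) (j : Fin 3) (b : B) :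
    dJ M n (j, b) = n (M.e (j + 1) b) - n (M.e (j + 2) b) := rfl
theorem tJ_apply (x : B ⊕ V → ℚ) (j : Fin 3) (b : B) :
    tJ M x (j, b) = x (Sum.inl b) + x (Sum.inr (M.c j b)) := rfl
theorem dG_apply (n : V → ℚ) (j : Fin 3) (b : B) :
    dG M n (j, b) = n (M.c (j + 1) b) - n (M.c (j + 2) b) := rfl
theorem tG_apply (x : B ⊕ W → ℚ) (j : Fin 3) (b : B) :
    tG M x (j, b) = x (Sum.inl b) + x (Sum.inr (M.e j b)) := rfl

theorem face_sum [Fintype B] (j : Fin 3) (n : W → ℚ) (y : V → ℚ) :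
    ∑ b, (n (M.e (j + 1) b) - n (M.e (j + 2) b)) * y (M.c j b) = 0 := by
  have h : ∑ b, n (M.e (j + 1) b) * y (M.c j b) = ∑ b, n (M.e (j + 2) b) * y (M.c j b) := by
    rw [← Equiv.sum_comp (M.rho j) (fun b => n (M.e (j + 1) b) * y (M.c j b))]
    apply Finset.sum_congr rfl
    intro b _
    rw [M.e_rho, M.c_rho]
  simp only [sub_mul, Finset.sum_sub_distrib, h, sub_self]

theorem orthJ [Fintype B] (n : W → ℚ) (x : B ⊕ V → ℚ) : ∑ q, dJ M n q * tJ M x q = 0 := by
  rw [Fintype.sum_prod_type]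
  simp only [dJ_apply, tJ_apply, mul_add, Finset.sum_add_distrib]
  have h1 : ∑ j : Fin 3, ∑ b, (n (M.e (j + 1) b) - n (M.e (j + 2) b)) * x (Sum.inl b) = 0 := by
    rw [Finset.sum_comm]
    apply Finset.sum_eq_zero
    intro b _
    rw [← Finset.sum_mul, Finset.sum_sub_distrib, sum3 (fun j => n (M.e j b)),
      sum3' (fun j => n (M.e j b)), sub_self, zero_mul]
  have h2 : ∑ j : Fin 3, ∑ b, (n (M.e (j + 1) b) - n (M.e (j + 2) b)) *
      x (Sum.inr (M.c j b)) = 0 := by
    apply Finset.sum_eq_zero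
    intro j _
    exact face_sum M j n (fun v => x (Sum.inr v))
  rw [h1, h2, add_zero]

theorem orthG [Fintype B] [Fintype W] (y : V → ℚ) (x : B ⊕ W → ℚ) :
    ∑ q, dG M y q * tG M x q = 0 := by
  rw [Fintype.sum_prod_type]
  simp only [dG_apply, tG_apply, mul_add, Finset.sum_add_distrib]
  have h1 : ∑ j : Fin 3, ∑ b, (y (M.c (j + 1) b) - y (M.c (j + 2) b)) * x (Sum.inl b) = 0 := by
    rw [Finset.sum_comm]
    apply Finset.sum_eq_zero
    intro b _
    rw [← Finset.sum_mul, Finset.sum_sub_distrib, sum3 (fun j => y (M.c j b)),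
      sum3' (fun j => y (M.c j b)), sub_self, zero_mul]
  have h2 : ∑ j : Fin 3, ∑ b, (y (M.c (j + 1) b) - y (M.c (j + 2) b)) *
      x (Sum.inr (M.e j b)) = 0 := by
    have h3 : ∀ j : Fin 3, ∑ b, (y (M.c (j + 1) b) - y (M.c (j + 2) b)) *
      x (Sum.inr (M.e j b)) = ∑ w, (y (M.cw (j + 1) w) - y (M.cw (j + 2) w)) *
      x (Sum.inr w) := by
      intro j
      rw [← Equiv.sum_comp (M.e j)]
      apply Finset.sum_congr rfl
      intro b _
      rw [M.cw_e _ _ (fne1 j).symm, M.cw_e _ _ (fne2 j).symm]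
    simp only [h3]
    rw [Finset.sum_comm]
    apply Finset.sum_eq_zero
    intro b _
    rw [← Finset.sum_mul, Finset.sum_sub_distrib, sum3 (fun j => y (M.cw j b)),
      sum3' (fun j => y (M.cw j b)), sub_self, zero_mul]
  rw [h1, h2, add_zero]

theorem conn_fun {α : Type} (hc : M.Conn) (m : B → α)
    (h : ∀ i i' b b', M.e i b = M.e i' b' → m b = m b') (b b' : B) : m b = m b' := by
  have h1 : ∀ j b b', M.c j b = M.c j b' → m b = m b' := by
    intro j b b' hb
    have := M.exact j b b' hb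
    induction this with
    | rel x y hxy => exact (h _ _ _ _ hxy).symm
    | refl x => rfl
    | symm x y _ ih => exact (ih (by exact hb.symm)).symm
    | trans x y z h1 h2 ih1 ih2 =>
      have e1 := M.c_of_eqvGen h1
      have e2 := M.c_of_eqvGen h2
      exact (ih1 e1).trans (ih2 e2)
  induction hc b b' with
  | rel x y hxy => obtain ⟨j, hj⟩ := hxy; exact h1 j _ _ hj
  | refl x => rfl
  | symm x y _ ih => exact ih.symm
  | trans x y z _ _ ih1 ih2 => exact ih1.trans ih2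

/-- two blacks at a common white have a common face -/
theorem common_face {i i' : Fin 3} {b b' : B} (h : M.e i b = M.e i' b') :
    ∃ j, M.c j b = M.c j b' := by
  obtain ⟨j, h1, h2⟩ := fthird i i'
  refine ⟨j, ?_⟩
  rw [← M.cw_e j i h1.symm b, ← M.cw_e j i' h2.symm b', h]

theorem white_of (w : W) (i : Fin 3) : ∃ b, M.e i b = w := ⟨(M.e i).symm w, by simp⟩

theorem all_eq_of {α : Type} (g : Fin 3 → α) (h : ∀ j, g (j + 1) = g (j + 2)) (i j : Fin 3) :
    g i = g j := by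
  have h0 := h 0; have h1 := h 1; have h2 := h 2
  simp only [show (0 : Fin 3) + 1 = 1 from rfl, show (0 : Fin 3) + 2 = 2 from rfl,
    show (1 : Fin 3) + 1 = 2 from rfl, show (1 : Fin 3) + 2 = 0 from rfl,
    show (2 : Fin 3) + 1 = 0 from rfl, show (2 : Fin 3) + 2 = 1 from rfl] at h0 h1 h2
  fin_cases i <;> fin_cases j <;> simp_all

theorem kerJ (hc : M.Conn) [Nonempty B] (n : W → ℚ) (h : ∀ q, dJ M n q = 0) :
    ∃ c : ℚ, ∀ w, n w = c := by
  obtain ⟨b0⟩ := ‹Nonempty B›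
  have h0 : ∀ b i j, n (M.e i b) = n (M.e j b) := by
    intro b i j
    refine all_eq_of (fun j => n (M.e j b)) ?_ i j
    intro j
    have := h (j, b)
    rw [dJ_apply] at this
    linarith
  refine ⟨n (M.e 0 b0), fun w => ?_⟩
  obtain ⟨b, rfl⟩ := white_of M w 0
  apply conn_fun M hc (fun b => n (M.e 0 b))
  intro i i' b b' hb
  show n (M.e 0 b) = n (M.e 0 b')
  rw [h0 b 0 i, h0 b' 0 i', hb]

theorem kertJ (hc : M.Conn) [Nonempty B] (x : B ⊕ V → ℚ) (h : ∀ q, tJ M x q = 0) :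
    ∃ c : ℚ, (∀ b, x (Sum.inl b) = c) ∧ ∀ v, x (Sum.inr v) = -c := by
  obtain ⟨b0⟩ := ‹Nonempty B›
  have h0 : ∀ b j, x (Sum.inr (M.c j b)) = - x (Sum.inl b) := by
    intro b j
    have := h (j, b)
    rw [tJ_apply] at this
    linarith
  have h1 : ∀ b, x (Sum.inl b) = x (Sum.inl b0) := by
    intro b
    apply conn_fun M hc (fun b => x (Sum.inl b))
    intro i i' b b' hb
    obtain ⟨j, hj⟩ := common_face M hb
    show x (Sum.inl b) = x (Sum.inl b')
    have e1 := h0 b j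
    have e2 := h0 b' j
    rw [hj] at e1
    linarith
  refine ⟨x (Sum.inl b0), h1, fun v => ?_⟩
  obtain ⟨j, b, rfl⟩ := M.surj v
  rw [h0, h1]

theorem kerG (hc : M.Conn) [Nonempty B] (y : V → ℚ) (h : ∀ q, dG M y q = 0) :
    ∃ c : ℚ, ∀ v, y v = c := by
  obtain ⟨b0⟩ := ‹Nonempty B›
  have h0 : ∀ b i j, y (M.c i b) = y (M.c j b) := by
    intro b i j
    refine all_eq_of (fun j => y (M.c j b)) ?_ i j
    intro j
    have := h (j, b)
    rw [dG_apply] at this
    linarith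
  refine ⟨y (M.c 0 b0), fun v => ?_⟩
  obtain ⟨j, b, rfl⟩ := M.surj v
  rw [h0 b j 0]
  apply conn_fun M hc (fun b => y (M.c 0 b))
  intro i i' b b' hb
  obtain ⟨j, hj⟩ := common_face M hb
  show y (M.c 0 b) = y (M.c 0 b')
  rw [h0 b 0 j, h0 b' 0 j, hj]

theorem kertG (hc : M.Conn) [Nonempty B] (x : B ⊕ W → ℚ) (h : ∀ q, tG M x q = 0) :
    ∃ c : ℚ, (∀ b, x (Sum.inl b) = c) ∧ ∀ w, x (Sum.inr w) = -c := by
  obtain ⟨b0⟩ := ‹Nonempty B›
  have h0 : ∀ b j, x (Sum.inr (M.e j b)) = - x (Sum.inl b) := by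
    intro b j
    have := h (j, b)
    rw [tG_apply] at this
    linarith
  have h1 : ∀ b, x (Sum.inl b) = x (Sum.inl b0) := by
    intro b
    apply conn_fun M hc (fun b => x (Sum.inl b))
    intro i i' b b' hb
    show x (Sum.inl b) = x (Sum.inl b')
    have e1 := h0 b i
    have e2 := h0 b' i'
    rw [hb] at e1
    linarith
  refine ⟨x (Sum.inl b0), h1, fun v => ?_⟩
  obtain ⟨b, rfl⟩ := white_of M v 0
  rw [h0, h1]

include M in
theorem card_W [Fintype B] [Fintype W] : Fintype.card W = Fintype.card B :=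
  (Fintype.card_congr (M.e 0)).symm

/-- `H_1 = 0`: every cycle of `J` is the boundary of a 2-chain. -/
theorem exactJ [Fintype B] [Fintype W] [Fintype V] (hs : M.Sph) [Nonempty B]
    (z : Fin 3 × B → ℚ) (hz : ∀ x, ∑ q, z q * tJ M x q = 0) : ∃ n, dJ M n = z := by
  apply exact_of_card (dJ M) (tJ M) (orthJ M) (fun _ => 1) _
    (fun s => Sum.elim (fun _ => 1) (fun _ => -1) s) _ _ z hz
  · intro y hy
    obtain ⟨c, hc⟩ := kerJ M hs.conn y (fun q => congrFun hy q)
    refine ⟨c, ?_⟩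
    funext w
    simp [hc]
  · intro x hx
    obtain ⟨c, hc, hc'⟩ := kertJ M hs.conn x (fun q => congrFun hx q)
    refine ⟨c, ?_⟩
    funext s
    rcases s with b | v
    · simp [hc]
    · simp [hc']
  · have h1 := hs.card
    have h2 := card_W M
    simp only [Fintype.card_sum, Fintype.card_prod, Fintype.card_fin]
    omega

end

end Vale.Agent.P039.H261
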