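import Vale.Agent.P039.H261.Count
import Vale.Agent.P039.Bz.Stmt

/-! The planar input `Cyc`. -/

namespace Vale.Agent.P039.H261

open Bn

variable {B W V : Type} (M : PMap B W V)

theorem exists_pot [Fintype B] [Fintype W] (hc : M.Conn) (ws : W) :
    ∃ u : Fin 3 × B → ℚ, ∀ n : W → ℚ, ∑ q, u q * dJ M n q = ∑ w, (n ws - n w) := by
  classical
  let good : W → Prop := fun w => ∃ u : Fin 3 × B → ℚ, ∀ n : W → ℚ,
    ∑ q, u q * dJ M n q = n ws - n w
  have h1 : ∀ b j, good (M.e (j + 1) b) = good (M.e (j + 2) b) := by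
    intro b j
    have key : ∀ n : W → ℚ, ∑ q, (Pi.single (j, b) (1 : ℚ) : Fin 3 × B → ℚ) q * dJ M n q =
        n (M.e (j + 1) b) - n (M.e (j + 2) b) := by
      intro n
      rw [Finset.sum_eq_single (j, b)]
      · simp [dJ_apply]
      · intro q _ hq
        simp [Pi.single_eq_of_ne hq]
      · simp
    apply propext
    constructor
    · rintro ⟨u, hu⟩
      refine ⟨u + Pi.single (j, b) 1, fun n => ?_⟩
      simp only [Pi.add_apply, add_mul, Finset.sum_add_distrib]
      rw [hu, key]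
      ring
    · rintro ⟨u, hu⟩
      refine ⟨u - Pi.single (j, b) 1, fun n => ?_⟩
      simp only [Pi.sub_apply, sub_mul, Finset.sum_sub_distrib]
      rw [hu, key]
      ring
  have h2 : ∀ b i j, good (M.e i b) = good (M.e j b) := fun b =>
    all_eq_of (fun j => good (M.e j b)) (h1 b)
  obtain ⟨b0, hb0⟩ := white_of M ws 0
  have h3 : ∀ w, good w := by
    intro w
    obtain ⟨b, rfl⟩ := white_of M w 0
    have h4 : good (M.e 0 b) = good (M.e 0 b0) := by
      apply conn_fun M hc (fun b => good (M.e 0 b))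
      intro i i' b b' hb
      show good (M.e 0 b) = good (M.e 0 b')
      rw [h2 b 0 i, h2 b' 0 i', hb]
    rw [h4, hb0]
    exact ⟨0, fun n => by simp⟩
  choose u hu using h3
  refine ⟨fun q => ∑ w, u w q, fun n => ?_⟩
  simp only [Finset.sum_mul]
  rw [Finset.sum_comm]
  exact Finset.sum_congr rfl (fun w _ => hu w n)

theorem sgn_tab1 : ∀ (f g : Fin 3) (p : Fin 3 → Bool), f ≠ g →
    (p (f + 1) = true ∧ p (f + 2) = false) → (p (g + 1) = false ∧ p (g + 2) = true) →
    (((Finset.univ.filter fun j => p j = true).card = 2 → g - f = 1) ∧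
      ((Finset.univ.filter fun j => p j = true).card = 1 → g - f = 2)) := by
  decide

theorem sgn_tab2 : ∀ (f g : Fin 3) (p : Fin 3 → Bool), f ≠ g →
    (p (f + 1) = false ∧ p (f + 2) = true) → (p (g + 1) = true ∧ p (g + 2) = false) →
    (((Finset.univ.filter fun j => p j = true).card = 2 → g - f = 2) ∧
      ((Finset.univ.filter fun j => p j = true).card = 1 → g - f = 1)) := by
  decide

variable {M} {f g : B → Fin 3} {σ : Equiv.Perm B} {C : Finset B} {I : Finset W} {s : ℚ}

theorem ind_one {w w' : W} (h : ind I w - ind I w' = 1) : w ∈ I ∧ w' ∉ I := by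
  by_cases h1 : w ∈ I <;> by_cases h2 : w' ∈ I
  · simp [ind, h1, h2] at h
  · exact ⟨h1, h2⟩
  · simp [ind, h1, h2] at h; norm_num at h
  · simp [ind, h1, h2] at h

theorem ind_neg {w w' : W} (h : ind I w - ind I w' = -1) : w ∉ I ∧ w' ∈ I := by
  have : ind I w' - ind I w = 1 := by linarith
  exact (ind_one this).symm

theorem JC.eps_eq (h : JC M f g σ C) (hs0 : s = 1 ∨ s = -1)
    (hI : zz f g C (fun _ => 1) = s • dJ M (ind I)) (b : B) (hb : b ∈ C) :
    (tt M I b = 2 → (Bz.eps (g b - f b) : ℚ) = s) ∧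
    (tt M I b = 1 → (Bz.eps (g b - f b) : ℚ) = -s) := by
  classical
  have h1 := congrFun hI (f b, b)
  have h2 := congrFun hI (g b, b)
  have hne := h.ne b hb
  simp only [zz, hb, if_true, hne, if_false, Pi.smul_apply, smul_eq_mul, dJ_apply, sub_zero,
    hne.symm, mul_one, zero_sub] at h1 h2
  rcases hs0 with rfl | rfl
  · have a1 := ind_one (I := I) (w := M.e (f b + 1) b) (w' := M.e (f b + 2) b) (by linarith)
    have a2 := ind_neg (I := I) (w := M.e (g b + 1) b) (w' := M.e (g b + 2) b) (by linarith)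
    have := sgn_tab1 (f b) (g b) (fun j => decide (M.e j b ∈ I)) hne
      (by simpa using a1) (by simpa using a2)
    simp only [decide_eq_true_eq] at this
    constructor
    · intro ht
      rw [this.1 ht]; simp [Bz.eps]
    · intro ht
      rw [this.2 ht]; simp [Bz.eps]
  · have a1 := ind_neg (I := I) (w := M.e (f b + 1) b) (w' := M.e (f b + 2) b) (by linarith)
    have a2 := ind_one (I := I) (w := M.e (g b + 1) b) (w' := M.e (g b + 2) b) (by linarith)
    have := sgn_tab2 (f b) (g b) (fun j => decide (M.e j b ∈ I)) hne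
      (by simpa using a1) (by simpa using a2)
    simp only [decide_eq_true_eq] at this
    constructor
    · intro ht
      rw [this.1 ht]; simp [Bz.eps]
    · intro ht
      rw [this.2 ht]; simp [Bz.eps]

/-- The main property of one curve. -/
theorem JC.main [Fintype B] [Fintype W] [Fintype V] (hs : M.Sph) (h : JC M f g σ C) (b0 : B)
    (h0 : b0 ∉ C)
    (gi : ∀ b b', b ≠ b0 → b' ≠ b0 → M.c (g b) b = M.c (g b') b' → b = b')
    (gr : ∀ b, b ≠ b0 → ∀ i, M.c (g b) b ≠ M.c i b0)
    (u : Fin 3 × B → ℚ)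
    (hu : ∀ n : W → ℚ, ∑ q, u q * dJ M n q = ∑ w, (n (M.e 0 b0) - n w)) :
    ∃ m : ℕ, C.card = 2 * m + 3 ∧
      0 < (-1 : ℚ) ^ m * ((∏ b ∈ C, Bz.eps (g b - f b) : ℤ) : ℚ) *
        ∑ b ∈ C, (u (f b, b) - u (g b, b)) := by
  classical
  obtain ⟨I, s, hs0, hw0, hI⟩ := h.two hs (M.e 0 b0)
  obtain ⟨hk, ht⟩ := h.cycle_lemma hs hs0 hI b0 h0 hw0 gi gr
  obtain ⟨b1, hb1⟩ := h.nonempty
  refine ⟨_, hk, ?_⟩
  set m := (C.filter fun b => tt M I b = 2).card with hm
  have hprod : ((∏ b ∈ C, Bz.eps (g b - f b) : ℤ) : ℚ) = s ^ m * (-s) ^ (m + 3) := by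
    rw [Int.cast_prod, ← Finset.prod_filter_mul_prod_filter_not C (fun b => tt M I b = 2)]
    congr 1
    · rw [hm]
      apply Finset.prod_eq_pow_card
      intro b hb
      rw [Finset.mem_filter] at hb
      exact (h.eps_eq hs0 hI b hb.1).1 hb.2
    · have h3 : (C.filter fun b => ¬ tt M I b = 2).card = m + 3 := by
        have := Finset.card_filter_add_card_filter_not (s := C) (fun b => tt M I b = 2)
        omega
      rw [← h3]
      apply Finset.prod_eq_pow_card
      intro b hb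
      rw [Finset.mem_filter] at hb
      refine (h.eps_eq hs0 hI b hb.1).2 ?_
      rcases ht b hb.1 with h4 | h4
      · exact h4
      · exact absurd h4 hb.2
  have hsum : ∑ b ∈ C, (u (f b, b) - u (g b, b)) = - s * I.card := by
    have h1 : ∑ b ∈ C, (u (f b, b) - u (g b, b)) = ∑ q, u q * zz f g C (fun _ => 1) q := by
      rw [Fintype.sum_prod_type_right]
      have h2 : ∀ b, ∑ j, u (j, b) * zz f g C (fun _ => 1) (j, b) =
          if b ∈ C then u (f b, b) - u (g b, b) else 0 := by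
        intro b
        by_cases hb : b ∈ C
        · simp only [zz, hb, if_true, mul_sub, Finset.sum_sub_distrib, mul_ite, mul_one,
            mul_zero, Finset.sum_ite_eq', Finset.mem_univ]
        · simp [zz, hb]
      simp only [h2]
      rw [Finset.sum_ite_mem, Finset.univ_inter]
    rw [h1, hI]
    have h3 : ∀ q, u q * (s • dJ M (ind I)) q = s * (u q * dJ M (ind I) q) := by
      intro q
      simp only [Pi.smul_apply, smul_eq_mul]; ring
    simp only [h3]
    rw [← Finset.mul_sum, hu]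
    simp [ind, hw0, Finset.sum_neg_distrib]
  have hIpos : (0 : ℚ) < I.card := by
    have : I.Nonempty := by
      by_contra h1
      rw [Finset.not_nonempty_iff_eq_empty] at h1
      have h2 := congrFun hI (f b1, b1)
      have h3 : dJ M (ind I) (f b1, b1) = 0 := by rw [dJ_apply]; simp [ind, h1]
      simp [zz, hb1, h.ne b1 hb1, h3] at h2
    exact_mod_cast Finset.card_pos.2 this
  rw [hprod, hsum]
  have h5 : (-1 : ℚ) ^ m * (s ^ m * (-s) ^ (m + 3)) * (-s * (I.card : ℚ)) = I.card := by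
    rcases hs0 with rfl | rfl
    · have : (-1 : ℚ) ^ m * (-1) ^ m = 1 := by rw [← mul_pow]; norm_num
      rw [one_pow, pow_add]
      linear_combination (I.card : ℚ) * this
    · have : (-1 : ℚ) ^ m * (-1) ^ m = 1 := by rw [← mul_pow]; norm_num
      rw [neg_neg, one_pow, mul_one, this]
      ring
  rw [h5]
  exact hIpos

theorem Fo_some {b₀ : B} {b : Bz.BOff b₀} {j : Fin 3} {v : Bz.VOff M b₀}
    (h : Bz.Fo M b₀ b j = some v) : M.c j b.1 = v.1 := by
  unfold Bz.Fo at h
  split_ifs at h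
  exact congrArg Subtype.val (Option.some.inj h)

theorem cycStmt : Bz.CycStmt := by
  classical
  intro B W V _ _ _ _ M hs b₀
  obtain ⟨u, hu⟩ := exists_pot M hs.conn (M.e 0 b₀)
  refine ⟨fun b j => ((u (j, b.1) : ℚ) : ℝ), ?_⟩
  intro f g φ ψ hf hg hd C b₁ hC
  let f' : B → Fin 3 := fun b => if h : b ≠ b₀ then f ⟨b, h⟩ else 0
  let g' : B → Fin 3 := fun b => if h : b ≠ b₀ then g ⟨b, h⟩ else 0
  let σ' : Equiv.Perm (Bz.BOff b₀) := φ.trans ψ.symm
  let σ : Equiv.Perm B := Equiv.Perm.ofSubtype σ'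
  have hσ : ∀ b : Bz.BOff b₀, σ b.1 = (σ' b).1 := fun b => Equiv.Perm.ofSubtype_apply_coe σ' b
  have hf' : ∀ b : Bz.BOff b₀, f' b.1 = f b := fun b => by simp [f', b.2]
  have hg' : ∀ b : Bz.BOff b₀, g' b.1 = g b := fun b => by simp [g', b.2]
  let C' : Finset B := C.map (Function.Embedding.subtype _)
  have hC' : ∀ b : Bz.BOff b₀, b.1 ∈ C' ↔ b ∈ C := by
    intro b
    simp only [C', Finset.mem_map, Function.Embedding.subtype_apply]
    constructor
    · rintro ⟨b', hb', he⟩
      rw [← Subtype.ext he]; exact hb'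
    · intro hb; exact ⟨b, hb, rfl⟩
  have hC0 : ∀ b ∈ C', ∃ b' : Bz.BOff b₀, b'.1 = b ∧ b' ∈ C := by
    intro b hb
    simp only [C', Finset.mem_map, Function.Embedding.subtype_apply] at hb
    obtain ⟨b', hb', he⟩ := hb
    exact ⟨b', he, hb'⟩
  have h0 : b₀ ∉ C' := by
    intro h
    obtain ⟨b', he, _⟩ := hC0 _ h
    exact b'.2 he
  have hpow : ∀ (n : ℕ) (b : Bz.BOff b₀), (σ ^ n) b.1 = ((σ' ^ n) b).1 := by
    intro n b
    induction n with
    | zero => rfl
    | succ n ih => rw [pow_succ', Equiv.Perm.mul_apply, ih, hσ, pow_succ', Equiv.Perm.mul_apply]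
  have hJ : JC M f' g' σ C' := by
    refine ⟨?_, ?_, ?_, ?_, ?_, ?_⟩
    · intro b hb
      obtain ⟨b, rfl, hb⟩ := hC0 b hb
      rw [hf', hg']; exact hd b
    · intro b hb
      obtain ⟨b, rfl, hb⟩ := hC0 b hb
      rw [hσ, hg', hf', Fo_some (hf b), Fo_some (hg (σ' b))]
      simp [σ']
    · intro b
      by_cases hb0 : b = b₀
      · subst hb0
        have : σ b = b := Equiv.Perm.ofSubtype_apply_of_not_mem σ' (by simp)
        rw [this]
      · have h1 := hσ ⟨b, hb0⟩
        simp only at h1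
        rw [h1, hC' (σ' ⟨b, hb0⟩), hC' ⟨b, hb0⟩, hC, hC]
        exact Equiv.Perm.sameCycle_apply_right
    · intro b hb b' hb'
      obtain ⟨b, rfl, hbc⟩ := hC0 b hb
      obtain ⟨b', rfl, hbc'⟩ := hC0 b' hb'
      have h1 : σ'.SameCycle b b' := ((hC b).1 hbc).symm.trans ((hC b').1 hbc')
      obtain ⟨n, _, hn⟩ := h1.exists_pow_eq'
      exact ⟨n, by rw [zpow_natCast, hpow, hn]⟩
    · intro b hb b' hb' he
      obtain ⟨b, rfl, hb⟩ := hC0 b hb
      obtain ⟨b', rfl, hb'⟩ := hC0 b' hb'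
      rw [hf', hf', Fo_some (hf b), Fo_some (hf b')] at he
      exact congrArg _ (φ.injective (Subtype.ext he))
    · exact ⟨b₁.1, (hC' b₁).2 ((hC b₁).2 (Equiv.Perm.SameCycle.refl _ _))⟩
  obtain ⟨m, hm, hpos⟩ := hJ.main hs b₀ h0 (by
      intro b b' hb hb' he
      have e1 := hg' ⟨b, hb⟩
      have e2 := hg' ⟨b', hb'⟩
      simp only at e1 e2
      rw [e1, e2] at he
      have e3 := Fo_some (hg ⟨b, hb⟩)
      have e4 := Fo_some (hg ⟨b', hb'⟩)
      simp only at e3 e4
      rw [e3, e4] at he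
      exact congrArg Subtype.val (ψ.injective (Subtype.ext he)))
    (by
      intro b hb i he
      have e1 := hg' ⟨b, hb⟩
      simp only at e1
      rw [e1] at he
      have e3 := Fo_some (hg ⟨b, hb⟩)
      simp only at e3
      rw [e3] at he
      exact (ψ ⟨b, hb⟩).2 i he.symm) u hu
  refine ⟨m, ?_, ?_⟩
  · rw [← hm]; simp [C']
  · have e1 : ∏ b ∈ C', Bz.eps (g' b - f' b) = ∏ b ∈ C, Bz.eps (g b - f b) := by
      simp only [C', Finset.prod_map, Function.Embedding.subtype_apply, hf', hg']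
    have e2 : ∑ b ∈ C', (u (f' b, b) - u (g' b, b)) = ∑ b ∈ C, (u (f b, b.1) - u (g b, b.1)) := by
      simp only [C', Finset.sum_map, Function.Embedding.subtype_apply, hf', hg']
    rw [e1, e2] at hpos
    beta_reduce
    exact_mod_cast hpos

end Vale.Agent.P039.H261
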