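import Vale.Agent.P039.H261.Cx

/-! The side of a closed curve of `J`. -/

namespace Vale.Agent.P039.H261

open Bn

variable {B W V : Type} (M : PMap B W V)

/-- a simple closed curve in `J` -/
structure JC (f g : B → Fin 3) (σ : Equiv.Perm B) (C : Finset B) : Prop where
  ne : ∀ b ∈ C, f b ≠ g b
  step : ∀ b ∈ C, M.c (g (σ b)) (σ b) = M.c (f b) b
  mem : ∀ b, σ b ∈ C ↔ b ∈ C
  cyc : ∀ b ∈ C, ∀ b' ∈ C, σ.SameCycle b b'
  inj : ∀ b ∈ C, ∀ b' ∈ C, M.c (f b) b = M.c (f b') b' → b = b'
  nonempty : C.Nonempty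

open Classical in
noncomputable def zz (f g : B → Fin 3) (C : Finset B) (l : B → ℚ) : Fin 3 × B → ℚ := fun q =>
  if q.2 ∈ C then l q.2 * ((if q.1 = f q.2 then 1 else 0) - (if q.1 = g q.2 then 1 else 0)) else 0

variable {M} {f g : B → Fin 3} {σ : Equiv.Perm B} {C : Finset B}

theorem JC.sum_shift (h : JC M f g σ C) (k : B → ℚ) : ∑ b ∈ C, k (σ b) = ∑ b ∈ C, k b :=
  Finset.sum_equiv σ (fun b => (h.mem b).symm) (fun _ _ => rfl)

theorem JC.pair [Fintype B] (h : JC M f g σ C) (l : B → ℚ) (x : B ⊕ V → ℚ) :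
    ∑ q, zz f g C l q * tJ M x q =
      ∑ b ∈ C, (l b - l (σ b)) * x (Sum.inr (M.c (f b) b)) := by
  classical
  have h1 : ∑ q, zz f g C l q * tJ M x q =
      ∑ b, if b ∈ C then l b * (x (Sum.inr (M.c (f b) b)) - x (Sum.inr (M.c (g b) b))) else 0 := by
    rw [Fintype.sum_prod_type_right]
    apply Finset.sum_congr rfl
    intro b _
    by_cases hb : b ∈ C
    · simp only [zz, hb, if_true, tJ_apply]
      have e : ∀ j : Fin 3, l b * ((if j = f b then (1 : ℚ) else 0) - (if j = g b then 1 else 0)) *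
          (x (Sum.inl b) + x (Sum.inr (M.c j b))) =
          (if j = f b then l b * (x (Sum.inl b) + x (Sum.inr (M.c j b))) else 0) -
          (if j = g b then l b * (x (Sum.inl b) + x (Sum.inr (M.c j b))) else 0) := by
        intro j
        split_ifs <;> ring
      simp only [e, Finset.sum_sub_distrib, Finset.sum_ite_eq', Finset.mem_univ, if_true]
      ring
    · simp [zz, hb]
  rw [h1, Finset.sum_ite_mem, Finset.univ_inter]
  have h2 : ∑ b ∈ C, l b * x (Sum.inr (M.c (g b) b)) =
      ∑ b ∈ C, l (σ b) * x (Sum.inr (M.c (f b) b)) := by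
    rw [← h.sum_shift]
    apply Finset.sum_congr rfl
    intro b hb
    rw [h.step b hb]
  simp only [mul_sub, sub_mul, Finset.sum_sub_distrib, h2]

/-- (P): a cycle supported on the corners of `C` is a multiple of the curve. -/
theorem JC.mult [Fintype B] [Fintype W] (h : JC M f g σ C) (y : Fin 3 × B → ℚ)
    (hy : ∀ x, ∑ q, y q * tJ M x q = 0)
    (hs : ∀ b j, y (j, b) ≠ 0 → b ∈ C ∧ (j = f b ∨ j = g b)) :
    ∃ l : ℚ, y = zz f g C (fun _ => l) := by
  classical
  have h1 : ∀ b, ∑ j, y (j, b) = 0 := by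
    intro b
    have := hy (fun s => if s = Sum.inl b then 1 else 0)
    rw [Fintype.sum_prod_type_right] at this
    simp only [tJ_apply, Sum.inl.injEq, reduceCtorEq, if_false, add_zero] at this
    rw [Finset.sum_eq_single b] at this
    · simpa using this
    · intro b' _ hb'
      simp [hb']
    · simp
  have h2 : y = zz f g C (fun b => y (f b, b)) := by
    funext q
    obtain ⟨j, b⟩ := q
    by_cases hb : b ∈ C
    · simp only [zz, hb, if_true]
      by_cases hjf : j = f b
      · have : j ≠ g b := by rw [hjf]; exact h.ne b hb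
        simp [hjf, h.ne b hb]
      · by_cases hjg : j = g b
        · have hne : g b ≠ f b := (h.ne b hb).symm
          simp only [hjg, hne, if_false, if_true]
          have h3 := h1 b
          have h4 : ∑ j, y (j, b) = y (f b, b) + y (g b, b) := by
            rw [← Finset.sum_pair (f := fun j => y (j, b)) (h.ne b hb)]
            symm
            apply Finset.sum_subset (Finset.subset_univ _)
            intro j _ hj
            by_contra h5
            rcases (hs b j h5).2 with h6 | h6 <;> simp [h6] at hj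
          rw [h4] at h3
          linarith
        · simp only [hjf, hjg, if_false, sub_self, mul_zero]
          by_contra h5
          rcases (hs b j h5).2 with h6 | h6
          · exact hjf h6
          · exact hjg h6
    · simp only [zz, hb, if_false]
      by_contra h5
      exact hb (hs b j h5).1
  have h3 : ∀ b ∈ C, y (f (σ b), σ b) = y (f b, b) := by
    intro b hb
    have h4 := hy (fun s => if s = Sum.inr (M.c (f b) b) then 1 else 0)
    rw [h2, h.pair] at h4
    rw [Finset.sum_eq_single b] at h4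
    · simp at h4
      linarith
    · intro b' hb' hne
      have : M.c (f b') b' ≠ M.c (f b) b := fun e => hne (h.inj b' hb' b hb e)
      simp [this]
    · intro h5; exact absurd hb h5
  obtain ⟨b1, hb1⟩ := h.nonempty
  have h4 : ∀ n : ℕ, (σ ^ n) b1 ∈ C ∧ y (f ((σ ^ n) b1), (σ ^ n) b1) = y (f b1, b1) := by
    intro n
    induction n with
    | zero => exact ⟨hb1, rfl⟩
    | succ n ih =>
      rw [pow_succ', Equiv.Perm.mul_apply]
      exact ⟨(h.mem _).2 ih.1, (h3 _ ih.1).trans ih.2⟩
  refine ⟨y (f b1, b1), ?_⟩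
  rw [h2]
  funext q
  obtain ⟨j, b⟩ := q
  by_cases hb : b ∈ C
  · obtain ⟨n, _, hn⟩ := (h.cyc b1 hb1 b hb).exists_pow_eq'
    have := (h4 n).2
    rw [hn] at this
    simp only [zz, hb, if_true, this]
    have h5 : zz f g C (fun b => y (f b, b)) (f b1, b1) = y (f b1, b1) := by rw [← h2]
    rw [← h5]
    simp only [zz, hb1, if_true, h.ne b1 hb1, if_false, sub_zero, mul_one]
  · simp [zz, hb]

open Classical in
noncomputable def ind (I : Finset W) (w : W) : ℚ := if w ∈ I then 1 else 0

theorem zz_smul (l : ℚ) : zz f g C (fun _ => l) = l • zz f g C (fun _ => (1 : ℚ)) := by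
  classical
  funext q
  simp only [zz, Pi.smul_apply, smul_eq_mul]
  split_ifs <;> ring

theorem zz_ne_zero {b : B} {j : Fin 3} {l : B → ℚ} (h : zz f g C l (j, b) ≠ 0) :
    b ∈ C ∧ (j = f b ∨ j = g b) := by
  classical
  simp only [zz] at h
  by_cases hb : b ∈ C
  · refine ⟨hb, ?_⟩
    by_contra h1
    push Not at h1
    simp [hb, h1.1, h1.2] at h
  · simp [hb] at h

theorem JC.two [Fintype B] [Fintype W] [Fintype V] (hs : M.Sph) (h : JC M f g σ C) (w0 : W) :
    ∃ (I : Finset W) (s : ℚ), (s = 1 ∨ s = -1) ∧ w0 ∉ I ∧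
      zz f g C (fun _ => 1) = s • dJ M (ind I) := by
  classical
  obtain ⟨b1, hb1⟩ := h.nonempty
  have : Nonempty B := ⟨b1⟩
  have hz : ∀ x, ∑ q, zz f g C (fun _ => (1 : ℚ)) q * tJ M x q = 0 := by
    intro x
    rw [h.pair]
    simp
  obtain ⟨n, hn⟩ := exactJ M hs _ hz
  -- the level set of n through w0
  let I : Finset W := Finset.univ.filter fun w => n w ≠ n w0
  have hI : ∀ w, w ∈ I ↔ n w ≠ n w0 := by intro w; simp [I]
  have h1 : ∃ l : ℚ, dJ M (ind I) = zz f g C (fun _ => l) := by
    apply h.mult _ (orthJ M _)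
    intro b j hq
    apply zz_ne_zero (l := fun _ => (1 : ℚ))
    rw [← hn]
    intro h2
    apply hq
    rw [dJ_apply] at h2 ⊢
    have h3 : n (M.e (j + 1) b) = n (M.e (j + 2) b) := by linarith
    simp [ind, hI, h3]
  obtain ⟨l, hl⟩ := h1
  rw [zz_smul, ← hn] at hl
  have hl0 : l ≠ 0 := by
    intro h0
    rw [h0, zero_smul] at hl
    obtain ⟨c, hc⟩ := kerJ M hs.conn (ind I) (fun q => congrFun hl q)
    have h2 : c = 0 := by
      rw [← hc w0]
      simp [ind, hI]
    have h3 : ∀ w, n w = n w0 := by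
      intro w
      by_contra h4
      have := hc w
      rw [h2] at this
      simp [ind, (hI w).2 h4] at this
    have h4 : zz f g C (fun _ => (1 : ℚ)) (f b1, b1) = 0 := by
      rw [← hn, dJ_apply, h3, h3 (M.e (f b1 + 2) b1)]
      ring
    simp [zz, hb1, h.ne b1 hb1] at h4
  refine ⟨I, l⁻¹, ?_, ?_, ?_⟩
  · have h5 := congrFun hl (f b1, b1)
    rw [hn] at h5
    simp only [Pi.smul_apply, smul_eq_mul, zz, hb1, if_true, h.ne b1 hb1, if_false, sub_zero,
      mul_one, dJ_apply, ind] at h5
    split_ifs at h5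
    · exact absurd (by linarith) hl0
    · left; rw [← h5]; norm_num
    · right; rw [← h5]; norm_num
    · exact absurd (by linarith) hl0
  · simp [hI]
  · rw [hl, smul_smul, inv_mul_cancel₀ hl0, one_smul, hn]

/-- functions which jump only across the curve -/
theorem JC.cst [Fintype B] [Fintype W] [Fintype V] (hs : M.Sph) (h : JC M f g σ C)
    {I : Finset W} {s : ℚ} (hs0 : s ≠ 0) (hI : zz f g C (fun _ => 1) = s • dJ M (ind I))
    (n : W → ℚ)
    (hn : ∀ b j, dJ M (ind I) (j, b) = 0 → n (M.e (j + 1) b) = n (M.e (j + 2) b)) :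
    ∃ l m : ℚ, ∀ w, n w = l + m * ind I w := by
  classical
  obtain ⟨b1, hb1⟩ := h.nonempty
  have : Nonempty B := ⟨b1⟩
  obtain ⟨l, hl⟩ := h.mult (dJ M n) (orthJ M _) (by
    intro b j hq
    apply zz_ne_zero (l := fun _ => (1 : ℚ))
    rw [hI]
    intro h2
    apply hq
    rw [dJ_apply]
    have : dJ M (ind I) (j, b) = 0 := by
      rcases mul_eq_zero.1 h2 with h3 | h3
      · exact absurd h3 hs0
      · exact h3
    rw [hn b j this, sub_self])
  rw [zz_smul, hI, smul_smul] at hl
  obtain ⟨c, hc⟩ := kerJ M hs.conn (n - (l * s) • ind I) (fun q => by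
    rw [map_sub, map_smul, hl, sub_self]; rfl)
  refine ⟨c, l * s, fun w => ?_⟩
  have := hc w
  simp only [Pi.sub_apply, Pi.smul_apply, smul_eq_mul] at this
  linarith

end Vale.Agent.P039.H261
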